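import Vale.Agent.P011UGA.IF

/-!
The Coxeter presentation of the Weyl group; one real place.
-/

set_option autoImplicit false
set_option linter.all false

namespace Vale.Agent.P011UGL

open Matrix Vale.Agent.P183CH Vale.Agent.P011UGA

variable {R : RS} (hR : R.Ok) {J K : Set (Fin R.r)} {v w : R.Aut}
include hR

theorem wd_rev (l : List (Fin R.r)) : R.wd l.reverse = (R.wd l)⁻¹ := by
  induction l with
  | nil => rfl
  | cons i l ih => rw [List.reverse_cons, RS.wd_append, RS.wd_single, ih, RS.wd_cons,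
      _root_.mul_inv_rev, hR.sE_inv]

omit hR in
theorem map_nonneg (h : ∀ j ∈ K, 0 ≤ v (R.α j)) {γ : R.Q} (h1 : 0 ≤ γ) (h2 : R.In K γ) :
    0 ≤ v γ := by
  rw [RS.map_eq]
  refine Finset.sum_nonneg fun i _ => ?_
  by_cases c : i ∈ K
  · exact smul_nonneg (h1 i) (h i c)
  · rw [h2 i c, zero_smul]

theorem min_unique (hv : v ∈ R.W) (hw : w ∈ R.WJ K) (h : ∀ j ∈ K, 0 ≤ v (R.α j))
    (h' : ∀ j ∈ K, 0 ≤ (v * w) (R.α j)) : w = 1 := hR.eq_one hw fun j hj =>
  (hR.sign' (RS.WJ_le K hw) (hR.simple j)).resolve_right fun c =>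
    hR.not_both (hR.map_mem (mul_mem hv (RS.WJ_le K hw)) (hR.simple j)) (h' j hj) (by
      have := map_nonneg h (neg_nonneg.2 c) (hR.map_In hw (RS.In_α hj)).neg
      rwa [map_neg, neg_nonneg] at this)

theorem exists_min (hK : K ⊆ J) (hw : w ∈ R.WJ J) : ∃ v ∈ R.WJ J, ∃ a : List (Fin R.r),
    (∀ i ∈ a, i ∈ K) ∧ (∀ j ∈ K, 0 ≤ v (R.α j)) ∧ w = v * R.wd a ∧
      R.len w = R.len v + a.length := by
  induction hn : R.len w generalizing w with
  | zero =>
    obtain rfl := hR.len_eq_zero (RS.WJ_le J hw) hn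
    exact ⟨1, hw, [], by simp, fun j _ => RS.α_nonneg j, rfl, hn.symm⟩
  | succ n ih =>
    by_cases c : ∀ j ∈ K, 0 ≤ w (R.α j)
    · exact ⟨w, hw, [], by simp, c, (mul_one _).symm, hn.symm⟩
    push Not at c
    obtain ⟨j, hj, c⟩ := c
    have h1 := hR.len_mul_neg (RS.WJ_le J hw)
      ((hR.sign' (RS.WJ_le J hw) (hR.simple j)).resolve_left c)
    obtain ⟨v, hv, a, h2, h3, h4, h5⟩ := ih (mul_mem hw (RS.sE_mem (hK hj))) (by omega)
    refine ⟨v, hv, a ++ [j], fun i hi => ?_, h3, ?_, by simp; omega⟩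
    · rcases List.mem_append.1 hi with e | e
      · exact h2 i e
      · exact List.mem_singleton.1 e ▸ hj
    · rw [RS.wd_append, RS.wd_single, ← mul_assoc, ← h4, hR.mul_sE_sE]

theorem exists_red (hw : w ∈ R.WJ J) : ∃ a : List (Fin R.r),
    (∀ i ∈ a, i ∈ J) ∧ w = R.wd a ∧ R.len w = a.length := by
  obtain ⟨v, hv, a, h1, h2, h3, h4⟩ := exists_min hR le_rfl hw
  obtain rfl := hR.eq_one hv h2
  exact ⟨a, h1, h3.trans (one_mul _), by rw [h4, hR.len_one, zero_add]⟩

theorem len_le (l : List (Fin R.r)) : R.len (R.wd l) ≤ l.length := by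
  induction l using List.reverseRecOn with
  | nil => exact hR.len_one.le
  | append_singleton l i ih =>
    rw [RS.wd_append, RS.wd_single, List.length_append, List.length_singleton]
    rcases hR.sign' (RS.wd_mem_W l) (hR.simple i) with e | e
    · have := hR.len_mul_pos (RS.wd_mem_W l) e
      omega
    · have := hR.len_mul_neg (RS.wd_mem_W l) e
      omega

omit hR in
theorem prod_rev {G : Type} [Group G] {s : Fin R.r → G} (h : ∀ j ∈ J, s j * s j = 1)
    {l : List (Fin R.r)} (hl : ∀ i ∈ l, i ∈ J) : (l.reverse.map s).prod = ((l.map s).prod)⁻¹ := by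
  induction l with
  | nil => simp
  | cons i l ih =>
    rw [List.reverse_cons, List.map_append, List.prod_append,
      ih fun j hj => hl j (List.mem_cons_of_mem _ hj), List.map_cons (a := i) (l := l),
      List.prod_cons, _root_.mul_inv_rev, inv_eq_of_mul_eq_one_right (h i (hl i List.mem_cons_self))]
    simp

omit hR in
theorem cox : COX := by
  intro R hR G _ s J h
  have h1 : ∀ j ∈ J, s j * s j = 1 := fun j hj => by
    simpa using h j hj j hj [j, j] (by simp) (by simp [RS.wd, hR.sE_mul_self])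
  have h2 : ∀ n, ∀ l l' : List (Fin R.r), (∀ i ∈ l, i ∈ J) → (∀ i ∈ l', i ∈ J) →
      R.wd l = R.wd l' → R.len (R.wd l) = n → l.length = n → l'.length = n →
      (l.map s).prod = (l'.map s).prod := by
    intro n
    induction n with
    | zero =>
      intro l l' _ _ _ _ e e'
      rw [List.length_eq_zero_iff.1 e, List.length_eq_zero_iff.1 e']
    | succ n ih =>
      intro l l' a1 a2 a3 a4 a5 a6
      obtain rfl | ⟨l₁, i, rfl⟩ := List.eq_nil_or_concat' l
      · simp at a5
      obtain rfl | ⟨l₂, j, rfl⟩ := List.eq_nil_or_concat' l'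
      · simp at a6
      have hi : i ∈ J := a1 i (by simp)
      have hj : j ∈ J := a2 j (by simp)
      have b1 : ∀ x ∈ l₁, x ∈ J := fun x e => a1 x (by simp [e])
      have b2 : ∀ x ∈ l₂, x ∈ J := fun x e => a2 x (by simp [e])
      have hK : ({i, j} : Set (Fin R.r)) ⊆ J := by rintro _ (rfl | rfl) <;> assumption
      simp only [List.length_append, List.length_singleton, Nat.add_right_cancel_iff] at a5 a6
      have key : ∀ (l : List (Fin R.r)) (x : Fin R.r), l.length = n →
          R.len (R.wd (l ++ [x])) = n + 1 → R.len (R.wd l) = n := fun l x e e' => by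
        have := len_le hR l
        rw [RS.wd_append, RS.wd_single] at e'
        rcases hR.sign' (RS.wd_mem_W l) (hR.simple x) with c | c
        · have := hR.len_mul_pos (RS.wd_mem_W l) c
          omega
        · have := hR.len_mul_neg (RS.wd_mem_W l) c
          omega
      have c1 := key l₁ i a5 a4
      have c2 := key l₂ j a6 (a3 ▸ a4)
      obtain ⟨v₁, d1, m₁, d2, d3, d4, d5⟩ := exists_min hR hK (RS.wd_mem b1)
      obtain ⟨v₂, e1, m₂, e2, e3, e4, e5⟩ := exists_min hR hK (RS.wd_mem b2)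
      have f1 : ∀ x ∈ m₁ ++ [i] ++ (m₂ ++ [j]).reverse, x = i ∨ x = j := fun x e => by
        simp only [List.mem_append, List.mem_reverse, List.mem_singleton] at e
        rcases e with (e | e) | e | e
        exacts [d2 x e, .inl e, e2 x e, .inr e]
      have f2 : v₁ * R.wd (m₁ ++ [i] ++ (m₂ ++ [j]).reverse) = v₂ := by
        rw [RS.wd_append, wd_rev hR, ← mul_assoc, mul_inv_eq_iff_eq_mul, RS.wd_append,
          RS.wd_append, ← mul_assoc, ← mul_assoc, ← d4, ← e4, ← RS.wd_append, ← RS.wd_append, a3]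
      have f3 := min_unique hR (K := {i, j}) (RS.WJ_le J d1) (RS.wd_mem f1) d3 (f2 ▸ e3)
      rw [f3, mul_one] at f2
      subst f2
      have f4 := h i hi j hj _ f1 f3
      rw [List.map_append, List.prod_append, prod_rev h1 (l := m₂ ++ [j]) fun x e =>
        hK (f1 x (List.mem_append_right _ (List.mem_reverse.2 e))), mul_inv_eq_one] at f4
      obtain ⟨m, g1, g2, g3⟩ := exists_red hR d1
      have g4 : ∀ a : List (Fin R.r), (∀ x ∈ a, x ∈ ({i, j} : Set (Fin R.r))) →
          ∀ x ∈ m ++ a, x ∈ J := fun a e x e' =>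
        (List.mem_append.1 e').elim (g1 x) fun c => hK (e x c)
      have g5 := ih l₁ (m ++ m₁) b1 (g4 _ d2) (by rw [RS.wd_append, ← g2, ← d4]) c1 a5
        (by rw [List.length_append]; omega)
      have g6 := ih l₂ (m ++ m₂) b2 (g4 _ e2) (by rw [RS.wd_append, ← g2, ← e4]) c2 a6
        (by rw [List.length_append]; omega)
      simp only [List.map_append, List.prod_append] at g5 g6 f4 ⊢
      rw [g5, g6, mul_assoc, mul_assoc, f4]
  have h3 : ∀ l : List (Fin R.r), (∀ i ∈ l, i ∈ J) → ∃ l' : List (Fin R.r), (∀ i ∈ l', i ∈ J) ∧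
      R.wd l' = R.wd l ∧ R.len (R.wd l') = l'.length ∧ (l'.map s).prod = (l.map s).prod := by
    intro l hl
    induction l using List.reverseRecOn with
    | nil => exact ⟨[], hl, rfl, hR.len_one, rfl⟩
    | append_singleton l i ih =>
      obtain ⟨l', a1, a2, a3, a4⟩ := ih fun x e => hl x (by simp [e])
      have hi : i ∈ J := hl i (by simp)
      have b : ∀ a : List (Fin R.r), (∀ x ∈ a, x ∈ J) → ∀ x ∈ a ++ [i], x ∈ J := fun a e x e' =>
        (List.mem_append.1 e').elim (e x) fun c => List.mem_singleton.1 c ▸ hi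
      rcases hR.sign' (RS.wd_mem_W l') (hR.simple i) with c | c
      · refine ⟨l' ++ [i], b _ a1, by rw [RS.wd_append, RS.wd_append, a2], ?_, by simp [a4]⟩
        rw [RS.wd_append, RS.wd_single, hR.len_mul_pos (RS.wd_mem_W l') c, a3]
        simp
      · obtain ⟨m, g1, g2, g3⟩ := exists_red hR (mul_mem (RS.wd_mem a1) (RS.sE_mem hi))
        have g4 := hR.len_mul_neg (RS.wd_mem_W l') c
        have g5 := h2 _ l' (m ++ [i]) a1 (b _ g1) (by
          rw [RS.wd_append, RS.wd_single, ← g2, hR.mul_sE_sE]) a3 rfl (by simp; omega)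
        refine ⟨m, g1, by rw [RS.wd_append, RS.wd_single, ← a2, g2], g2 ▸ g3, ?_⟩
        simp only [List.map_append, List.prod_append, List.map_singleton, List.prod_singleton]
          at g5 ⊢
        rw [← a4, g5, mul_assoc, h1 i hi, mul_one]
  intro l hl e
  obtain ⟨l', -, a2, a3, a4⟩ := h3 l hl
  rw [a2, e, hR.len_one, eq_comm, List.length_eq_zero_iff] at a3
  rw [← a4, a3]
  rfl

omit hR in
theorem ca (cx : COX) (af : AFF) : CA := by
  intro R hR J Y s q e e0 h1 h2 h3 h4 h5
  let c : Y → R.Q →ₗ[ℤ] ℤ := fun y => Fintype.linearCombination ℤ fun j => ((e y j).val : ℤ)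
  have hc : ∀ y j, (c y (R.α j) : ZMod 2) = e y j := fun y j => by
    simp [c, RS.α, Fintype.linearCombination_apply_single]
  have key : ∀ y, ∀ l : List (Fin R.r), (∀ i ∈ l, i ∈ J) → ∃ n : Fin R.r → ℤ, R.In J n ∧
      (∀ γ, c y ((R.wd l)⁻¹ γ) = c y γ + ∑ m, n m * R.pr γ m) ∧
      (q ((l.map s).prod y) = q y + fun m => (n m : ZMod 2)) ∧
      ∀ j ∈ J, (c y ((R.wd l)⁻¹ (R.α j)) : ZMod 2) = e ((l.map s).prod y) j := by
    intro y l hl
    have last : ∀ (n : Fin R.r → ℤ) (w : R.Aut) (z : Y),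
        (∀ γ, c y (w γ) = c y γ + ∑ m, n m * R.pr γ m) → (q z = q y + fun m => (n m : ZMod 2)) →
        ∀ j ∈ J, (c y (w (R.α j)) : ZMod 2) = e z j := fun n w z a1 a2 j hj => by
      rw [a1, h2 z j hj, a2, Int.cast_add, hc, h2 y j hj, add_assoc]
      simp only [RS.pr_α, Pi.add_apply, mul_add, Finset.sum_add_distrib, Int.cast_sum, Int.cast_mul,
        mul_comm ((n _ : ℤ) : ZMod 2)]
    induction l with
    | nil => exact ⟨0, fun _ _ => rfl, fun γ => by simp [RS.wd], by simp [← Pi.zero_def],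
        fun j _ => hc y j⟩
    | cons j l ih =>
      obtain ⟨n, a1, a2, a3, a4⟩ := ih fun i hi => hl i (List.mem_cons_of_mem _ hi)
      have hj := hl j List.mem_cons_self
      have b2 : ∀ γ, c y ((R.wd (j :: l))⁻¹ γ) = c y γ +
          ∑ m, (n + (-c y ((R.wd l)⁻¹ (R.α j))) • R.α j) m * R.pr γ m := fun γ => by
        rw [RS.wd_cons, _root_.mul_inv_rev, hR.sE_inv, RS.mul_app, hR.sE_eq, map_sub, map_smul,
          map_sub, map_smul, a2 γ]
        simp only [Pi.add_apply, add_mul, Finset.sum_add_distrib, Pi.smul_apply, RS.α_apply,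
          smul_eq_mul, mul_ite, mul_one, mul_zero, ite_mul, zero_mul, Finset.sum_ite_eq',
          Finset.mem_univ, if_true]
        ring
      have b3 : q (((j :: l).map s).prod y) = q y + fun m =>
          (((n + (-c y ((R.wd l)⁻¹ (R.α j))) • R.α j) m : ℤ) : ZMod 2) := by
        rw [List.map_cons, List.prod_cons, Equiv.Perm.mul_apply, h3 _ j hj, a3, ← a4 j hj,
          add_assoc]
        congr 1
        funext m
        simp only [Pi.add_apply, Pi.smul_apply, RS.α_apply, smul_eq_mul, Int.cast_add,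
          Pi.single_apply]
        split_ifs <;> simp [ZMod.neg_eq_self_mod_two]
      exact ⟨_, a1.add ((RS.In_α hj).smul _), b2, b3, last _ _ _ b2 b3⟩
  have h6 : ∀ l : List (Fin R.r), (∀ i ∈ l, i ∈ J) → R.wd l = 1 → (l.map s).prod = 1 :=
    cx R hR _ s J fun j hj m hm l hl e' => Equiv.ext fun y => h5 j hj m hm l hl y (by
      obtain ⟨n, -, a2, a3, -⟩ := key y l fun i hi => (hl i hi).elim (· ▸ hj) (· ▸ hm)
      have : n = 0 := Matrix.eq_zero_of_mulVec_eq_zero hR.det (funext fun i => by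
        have := a2 (R.α i)
        rw [e', inv_one, RS.one_app, left_eq_add] at this
        simpa only [RS.pr_α, mul_comm, mulVec, dotProduct, Pi.zero_apply] using this)
      rw [a3, this]
      simp [← Pi.zero_def])
  have h7 : ∀ j ∈ J, s j * s j = 1 := fun j hj => by
    simpa using h6 [j, j] (by simpa using hj) (by simp [RS.wd, hR.sE_mul_self])
  intro l hl y hy
  obtain ⟨n, a1, a2, a3, -⟩ := key y l hl
  rw [hy, left_eq_add] at a3
  choose n' hn' using fun m => (ZMod.intCast_zmod_eq_zero_iff_dvd (n m) 2).1 (congrFun a3 m)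
  let H : Subgroup R.Aut :=
    { carrier := {w | ∃ l : List (Fin R.r), (∀ i ∈ l, i ∈ J) ∧ R.wd l = w ∧ (l.map s).prod y = y}
      one_mem' := ⟨[], by simp, rfl, rfl⟩
      mul_mem' := by
        rintro _ _ ⟨a, b1, rfl, b2⟩ ⟨b, b3, rfl, b4⟩
        exact ⟨a ++ b, fun i hi => (List.mem_append.1 hi).elim (b1 i) (b3 i), RS.wd_append _ _, by
          rw [List.map_append, List.prod_append, Equiv.Perm.mul_apply, b4, b2]⟩
      inv_mem' := by
        rintro _ ⟨a, b1, rfl, b2⟩
        exact ⟨a.reverse, fun i hi => b1 i (List.mem_reverse.1 hi), wd_rev hR a, by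
          rw [prod_rev h7 b1, Equiv.Perm.inv_eq_iff_eq, b2]⟩ }
  obtain ⟨l', b1, b2, b3⟩ : R.wd l ∈ H := inv_mem_iff.1 ((Subgroup.closure_le H).2 (by
    rintro _ ⟨u, hu, j, hj, b1, rfl⟩
    obtain ⟨a, b2, rfl⟩ := hR.exists_wd hu
    have b3 : ∀ i ∈ a.reverse, i ∈ J := fun i hi => b2 i (List.mem_reverse.1 hi)
    obtain ⟨-, -, -, -, b4⟩ := key y _ b3
    have b5 := b4 j hj
    rw [wd_rev hR, inv_inv, (ZMod.intCast_zmod_eq_zero_iff_dvd _ 2).2 b1.two_dvd,
      prod_rev h7 b2] at b5
    refine ⟨a ++ j :: a.reverse, fun i hi => (List.mem_append.1 hi).elim (b2 i) fun c =>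
      (List.mem_cons.1 c).elim (· ▸ hj) (b3 i), by
        rw [RS.wd_append, RS.wd_cons, wd_rev hR, mul_assoc], ?_⟩
    rw [List.map_append, List.prod_append, List.map_cons, List.prod_cons, prod_rev h7 b2,
      Equiv.Perm.mul_apply, Equiv.Perm.mul_apply, h4 _ j hj b5.symm, ← Equiv.Perm.mul_apply,
      mul_inv_cancel, Equiv.Perm.one_apply])
    (af R hR J (c y) _ (inv_mem (RS.wd_mem hl)) n' (fun i hi => by
      have := hn' i
      rw [a1 i hi] at this
      omega) fun γ => by
        rw [a2, Finset.mul_sum]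
        simp only [hn', mul_assoc, Nat.cast_ofNat]))
  have h8 := h6 (l ++ l'.reverse) (fun i hi => (List.mem_append.1 hi).elim (hl i)
    fun c => b1 i (List.mem_reverse.1 c)) (by rw [RS.wd_append, wd_rev hR, b2, mul_inv_cancel])
  rw [List.map_append, List.prod_append, prod_rev h7 b1, mul_inv_eq_one] at h8
  rw [h8, b3]

end Vale.Agent.P011UGL
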